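import Crest.Agent.Ku.Defs

set_option autoImplicit false
set_option linter.style.haveILetI false

namespace Crest.Agent.Ku
open Module

lemma alg_dens (K R M : Type) [Field K] [Ring R] [Algebra K R] [AddCommGroup M] [Module R M]
    [Module K M] [IsScalarTower K R M] [SMulCommClass R K M] [IsSimpleModule R M]
    [FiniteDimensional K M] [FiniteDimensional K R] :
    ∃ m, finrank K (Module.End R M) * m = finrank K M ∧ m * finrank K M ≤ finrank K R := by
  classical
  haveI : Module.Finite (Module.End R M) M := Module.Finite.of_restrictScalars_finite K _ M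
  have hm := Module.finrank_mul_finrank K (Module.End R M) M
  let v := Module.finBasis (Module.End R M) M
  let Ψ : R →ₗ[K] (Fin (finrank (Module.End R M) M) → M) :=
    { toFun := fun b i => b • v i
      map_add' := fun b b' => by ext i; simp [add_smul]
      map_smul' := fun k b => by ext i; simp [smul_assoc] }
  have hΨ : Function.Surjective Ψ := by
    intro t
    obtain ⟨b, hb⟩ := jacobson_density (R := R) (M := M) (v.constr ℕ t) (Finset.univ.image v)
    refine ⟨b, funext fun i => ?_⟩
    have := hb (v i) (Finset.mem_image_of_mem _ (Finset.mem_univ i))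
    rw [Basis.constr_basis] at this
    exact this.symm
  have h2 := LinearMap.finrank_le_finrank_of_surjective hΨ
  rw [finrank_pi_fintype] at h2
  simp only [Finset.sum_const, Finset.card_univ, Fintype.card_fin, smul_eq_mul] at h2
  exact ⟨_, hm, h2⟩

section
variable (K D : Type) [Field K] [DivisionRing D] [Algebra K D] [FiniteDimensional K D]

lemma alg_inv (A : Subalgebra K D) (z : D) (hz : z ∈ A) : z⁻¹ ∈ A :=
  (IsIntegral.of_finite K z).inv_mem hz

lemma alg_two (A B : Subalgebra K D) (h : A < B) : 2 * finrank K A ≤ finrank K B := by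
  obtain ⟨b, hbB, hbA⟩ := SetLike.exists_of_lt h
  let f : (A × A) →ₗ[K] B :=
    { toFun := fun p => ⟨p.1.1 + p.2.1 * b, B.add_mem (h.le p.1.2) (B.mul_mem (h.le p.2.2) hbB)⟩
      map_add' := fun p q => Subtype.ext (by simp [add_mul]; abel)
      map_smul' := fun k p => Subtype.ext (by simp) }
  have hf : Function.Injective f := by
    rw [← LinearMap.ker_eq_bot, LinearMap.ker_eq_bot']
    rintro ⟨u, w⟩ h0
    have h1 : u.1 + w.1 * b = 0 := congrArg Subtype.val h0
    by_cases hw : w.1 = 0
    · rw [hw, zero_mul, add_zero] at h1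
      exact Prod.ext (Subtype.ext h1) (Subtype.ext hw)
    · exfalso
      apply hbA
      have : b = -(w.1⁻¹ * u.1) := by
        rw [eq_neg_of_add_eq_zero_left h1, mul_neg, neg_neg, ← mul_assoc, inv_mul_cancel₀ hw, one_mul]
      rw [this]
      exact A.neg_mem (A.mul_mem (alg_inv K D A _ w.2) u.2)
  have := LinearMap.finrank_le_finrank_of_injective hf
  rw [finrank_prod] at this
  omega

lemma alg_tr (x y : D) : LinearMap.trace K D (LinearMap.mulLeft K (x * y)) =
    LinearMap.trace K D (LinearMap.mulLeft K (y * x)) := by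
  rw [LinearMap.mulLeft_mul, LinearMap.mulLeft_mul]
  exact LinearMap.trace_comp_comm' _ _

lemma alg_tr0 (a c z : D) (hc : Commute c a) (hz : z ∈ LinearMap.range (ad K a)) :
    LinearMap.trace K D (LinearMap.mulLeft K (c * z)) = 0 := by
  obtain ⟨γ, rfl⟩ := hz
  have h1 : c * ad K a γ = (c * γ) * a - a * (c * γ) := by
    simp only [ad, LinearMap.sub_apply, LinearMap.mulRight_apply, LinearMap.mulLeft_apply]
    rw [mul_sub, ← mul_assoc, ← mul_assoc, hc.eq, mul_assoc a]
  have h2 : LinearMap.mulLeft K ((c * γ) * a - a * (c * γ)) =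
      LinearMap.mulLeft K ((c * γ) * a) - LinearMap.mulLeft K (a * (c * γ)) := by
    ext x; simp [sub_mul, mul_assoc]
  rw [h1, h2, map_sub, alg_tr, sub_self]

lemma alg_compl [CharZero K] (a : D) :
    IsCompl (Subalgebra.toSubmodule (Subalgebra.centralizer K {a})) (LinearMap.range (ad K a)) := by
  have hk : Subalgebra.toSubmodule (Subalgebra.centralizer K {a}) = LinearMap.ker (ad K a) := by
    ext z
    simp [ad, Subalgebra.mem_centralizer_iff, sub_eq_zero, eq_comm]
  have hd : Disjoint (Subalgebra.toSubmodule (Subalgebra.centralizer K {a}))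
      (LinearMap.range (ad K a)) := by
    rw [Submodule.disjoint_def]
    intro z h1 h2
    by_contra hz
    have hc : Commute z a := by
      have := (Subalgebra.mem_centralizer_iff K).1 h1 a rfl
      exact this.symm
    have h3 := alg_tr0 K D a z⁻¹ z hc.inv_left₀ h2
    rw [inv_mul_cancel₀ hz, LinearMap.mulLeft_one, LinearMap.trace_id] at h3
    have : 0 < finrank K D := finrank_pos
    exact this.ne' (by exact_mod_cast h3)
  refine ⟨hd, codisjoint_iff.2 (Submodule.eq_top_of_disjoint _ _ ?_ hd)⟩
  rw [hk]
  have := LinearMap.finrank_range_add_finrank_ker (ad K a)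
  omega

open TensorProduct in
lemma alg_sq (a : D) : finrank K D ≤ finrank K (Subalgebra.centralizer K {a}) ^ 2 := by
  classical
  set C := Subalgebra.centralizer K ({a} : Set D) with hC
  have haC : a ∈ C := (Subalgebra.mem_centralizer_iff K).2 (by rintro _ rfl; rfl)
  let ρ : (C ⊗[K] Dᵐᵒᵖ) →ₐ[K] Module.End K D :=
    (AlgHom.mulLeftRight K D).comp (Algebra.TensorProduct.map C.val (AlgHom.id _ _))
  have hρ : ∀ (c : C) (d x : D), ρ (c ⊗ₜ MulOpposite.op d) x = c.1 * x * d := fun c d x => by
    simp [ρ, AlgHom.mulLeftRight_apply]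
  let B := ρ.range
  have hB : finrank K B ≤ finrank K C * finrank K D := by
    have h1 : finrank K B ≤ finrank K (C ⊗[K] Dᵐᵒᵖ) :=
      LinearMap.finrank_range_le ρ.toLinearMap
    rw [finrank_tensorProduct, (MulOpposite.opLinearEquiv K).symm.finrank_eq] at h1
    exact h1
  let r : C → D → B := fun c d => ⟨ρ (c ⊗ₜ MulOpposite.op d), ⟨_, rfl⟩⟩
  have hr : ∀ c d x, r c d • x = c.1 * x * d := fun c d x => hρ c d x
  haveI : IsSimpleModule B D := by
    rw [isSimpleModule_iff]
    refine ⟨fun N => ?_⟩
    by_cases hN : N = ⊥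
    · exact Or.inl hN
    · right
      obtain ⟨z, hz, hz0⟩ := Submodule.exists_mem_ne_zero_of_ne_bot hN
      rw [eq_top_iff]
      intro d _
      have := N.smul_mem (r 1 (z⁻¹ * d)) hz
      rwa [hr, Subalgebra.coe_one, one_mul, ← mul_assoc, mul_inv_cancel₀ hz0, one_mul] at this
  have hE : ∀ (φ : (Module.End B D)) (x : D), φ x = φ 1 * x := fun φ x => by
    have := φ.map_smul (r 1 x) 1
    rwa [hr, hr, Subalgebra.coe_one, one_mul, one_mul, one_mul] at this
  let ev : (Module.End B D) →ₗ[K] C :=
    { toFun := fun φ => ⟨φ 1, (Subalgebra.mem_centralizer_iff K).2 (by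
        intro a' ha'
        rw [Set.mem_singleton_iff.1 ha']
        have := φ.map_smul (r ⟨a, haC⟩ 1) 1
        rw [hr, hr, mul_one, mul_one, mul_one, hE] at this
        exact this.symm)⟩
      map_add' := fun _ _ => rfl
      map_smul' := fun _ _ => rfl }
  have hev : Function.Injective ev := by
    intro φ ψ h
    have h1 : φ 1 = ψ 1 := congrArg Subtype.val h
    ext x
    rw [hE φ, hE ψ, h1]
  haveI : FiniteDimensional K (Module.End B D) := FiniteDimensional.of_injective ev hev
  have he : finrank K (Module.End B D) ≤ finrank K C := LinearMap.finrank_le_finrank_of_injective hev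
  obtain ⟨m, hm, h2⟩ := alg_dens K B D
  have hN : 0 < finrank K D := finrank_pos
  have h3 : m ≤ finrank K C := Nat.le_of_mul_le_mul_right (h2.trans hB) hN
  rw [← hm, pow_two]
  exact Nat.mul_le_mul he h3

end

theorem alg : AlgStmt := fun K D _ _ _ _ _ =>
  ⟨alg_inv K D, alg_two K D, alg_compl K D, alg_tr0 K D, alg_sq K D⟩

end Crest.Agent.Ku
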