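import Crest.Agent.Ku.Pt0
import Crest.Agent.Ku.PtB1

/-! Growth of the generated algebra (S0270). -/

set_option autoImplicit false

namespace Crest.Agent.Ku
open Module PowerSeries PB

theorem grow3 (hB : Base) (hR : RelStmt) (hA : PtAStmt) : GrowStmt := by
  intro S hroom
  classical
  obtain ⟨-, -, -, hExp, -, hLead, hExt, -, hTen, -, -, -, -, hInn⟩ := hB
  obtain ⟨l, hl⟩ : ∃ l, S.tau l ∉ S.Inn := by
    by_contra h
    push Not at h
    have h1 : Submodule.span S.K (Set.range S.tau) ⊔ S.Inn = S.Inn := by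
      rw [sup_eq_right, Submodule.span_le]
      rintro _ ⟨l, rfl⟩
      exact h l
    unfold St.room at hroom
    rw [h1] at hroom
    have := LinearMap.finrank_range_le ((ad S.K (S.x [])).prod (ad S.K (S.y [])))
    unfold St.Inn at hroom
    omega
  obtain ⟨K₁, D₁, _, _, _, _, _, ⟨E⟩⟩ := hExt 2 (by norm_num) S.K S.D
  have : CharZero K₁ := charZero_of_injective_algebraMap (algebraMap ℂ K₁).injective
  let ω : S.ι → D₁⟦X⟧ := fun j => X * C (E.φ (l j) • E.u)
  have hadm : Adm E ω := by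
    intro j i
    cases i with
    | zero => simp [ω]
    | succ i =>
      simp only [ω, coeff_succ_X_mul, coeff_C]
      split_ifs
      · apply Submodule.smul_mem
        have := E.mono_one (by norm_num) (P := fun _ _ => True) 1 0 trivial
        simpa [Ext.tenR] using this
      · exact Submodule.zero_mem _
  have hω : ∀ j, constantCoeff (ω j) = 0 := fun j => by simp [ω]
  obtain ⟨e, hev⟩ := E.exists_ev ω hadm hω
  obtain ⟨S', hrel, ⟨P⟩⟩ := hA S 2 K₁ D₁ E ω e 1 (by norm_num) hadm hω hev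
  refine ⟨S', hrel.1, ?_, ?_⟩
  · have := hrel.2.2.2 1 hroom
    unfold St.room at this ⊢
    omega
  by_contra hlt
  rw [not_lt] at hlt
  obtain ⟨-, -, l3, -, lK, lX, -⟩ := hLead K₁ D₁ S'.K S'.D P.L
  set A := Algebra.adjoin S.K {S.x [], S.y []} with hAd
  set A' := Algebra.adjoin S'.K {S'.x [], S'.y []} with hA'd
  obtain ⟨B, hBl, hBd⟩ := l3 A'
  have memB : ∀ t : D₁⟦X⟧, P.L.jD t ∈ A' → constantCoeff t ∈ B := by
    intro t ht
    have : constantCoeff t ∈ (B : Set D₁) := by rw [hBl]; exact ⟨t, ht, rfl⟩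
    exact this
  have ofB : ∀ z : B, ∃ t, P.L.jD t ∈ A' ∧ constantCoeff t = z := by
    intro z
    have : (z : D₁) ∈ P.L.lead (Subalgebra.toSubmodule A') := by rw [← hBl]; exact z.2
    exact this
  obtain ⟨x1, -⟩ := hExp S.ι S.D D₁ E.ψ ω e 1 le_rfl
    (fun j => by rw [pow_one]; exact X_dvd_iff.2 (hω j)) hev
  have hco : ∀ f : NC S.ι S.D, constantCoeff (e f) = E.ψ (f []) ∧
      coeff 1 (e f) = E.ψ (∑ j, l j • f [j]) * E.u := by
    intro f
    have h := X_pow_dvd_iff.1 (x1 f)
    have h0 := h 0 (by norm_num)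
    have h1 := h 1 (by norm_num)
    constructor
    · simpa [ω, sub_eq_zero] using h0
    · simp only [ω, map_sub, map_sum, mul_assoc, coeff_succ_X_mul, coeff_zero_eq_constantCoeff,
        map_mul, constantCoeff_C, coeff_C, one_ne_zero, if_false, sub_zero, sub_eq_zero] at h1
      rw [h1, map_sum, Finset.sum_mul]
      apply Finset.sum_congr rfl
      intro j _
      rw [E.psi_smul, smul_mul_assoc, smul_mul_assoc, (E.cu _).eq]
  have hx' : P.L.jD (e S.x) ∈ A' := by
    rw [← P.x0]; exact Algebra.subset_adjoin (by simp)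
  have hy' : P.L.jD (e S.y) ∈ A' := by
    rw [← P.y0]; exact Algebra.subset_adjoin (by simp)
  have hxB : E.ψ (S.x []) ∈ B := (hco S.x).1 ▸ memB _ hx'
  have hyB : E.ψ (S.y []) ∈ B := (hco S.y).1 ▸ memB _ hy'
  have hψ : ∀ w ∈ A, E.ψ w ∈ B := by
    intro w hw
    induction hw using Algebra.adjoin_induction with
    | mem x hx =>
      rcases hx with rfl | rfl
      · exact hxB
      · exact hyB
    | algebraMap k => rw [E.compat]; exact B.algebraMap_mem _
    | add x y hx hy ihx ihy => rw [map_add]; exact B.add_mem ihx ihy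
    | mul x y hx hy ihx ihy => rw [map_mul]; exact B.mul_mem ihx ihy
  have hBv : ∀ z ∈ B, Commute z E.v := by
    let b := Module.finBasis S.K A
    have h1 : LinearIndependent S.K (fun i => (b i : S.D)) :=
      b.linearIndependent.map' A.val.toLinearMap (LinearMap.ker_eq_bot.2 Subtype.val_injective)
    have h2 := (E.ind _ _ h1).comp (fun i => (i, (0 : Fin 2), (0 : Fin 2)))
      (fun i j h => (Prod.mk.inj h).1)
    have h3 : LinearIndependent K₁ (fun i => E.ψ (b i)) := by
      convert h2 using 1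
      ext i
      simp
    have h4 := finrank_span_eq_card h3
    rw [Fintype.card_fin] at h4
    have h5 : Submodule.span K₁ (Set.range fun i => E.ψ (b i)) = Subalgebra.toSubmodule B := by
      apply Submodule.eq_of_le_of_finrank_le
      · rw [Submodule.span_le]
        rintro _ ⟨i, rfl⟩
        exact hψ _ (b i).2
      · rw [h4]
        exact hBd.le.trans hlt
    intro z hz
    have hz2 : z ∈ Submodule.span K₁ (Set.range fun i => E.ψ (b i)) := by rw [h5]; exact hz
    clear hz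
    induction hz2 using Submodule.span_induction with
    | mem x hx => obtain ⟨i, rfl⟩ := hx; exact E.cv _
    | zero => exact Commute.zero_left _
    | add y y' _ _ h1 h2 => exact h1.add_left h2
    | smul c y _ h1 => exact h1.smul_left c
  choose σ hσ hσ0 using ofB
  have wd : ∀ (z : B) (t : D₁⟦X⟧), P.L.jD t ∈ A' → constantCoeff t = z →
      ad K₁ E.v (coeff 1 (σ z)) = ad K₁ E.v (coeff 1 t) := by
    intro z t ht h0
    obtain ⟨m, hm⟩ : X ∣ σ z - t := X_dvd_iff.2 (by rw [map_sub, hσ0, h0, sub_self])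
    have h1 : P.L.jD m ∈ Subalgebra.toSubmodule A' := by
      apply div_X P.L lK lX _ 1
      rw [pow_one, ← hm, map_sub]
      exact A'.sub_mem (hσ z) ht
    have h2 := congrArg (coeff 1) hm
    rw [map_sub, coeff_succ_X_mul, coeff_zero_eq_constantCoeff] at h2
    rw [← sub_eq_zero, ← map_sub, h2]
    exact sub_eq_zero.2 (hBv _ (memB m h1)).eq
  have c1 : ∀ p q : D₁⟦X⟧, coeff 1 (p * q)
      = constantCoeff p * coeff 1 q + coeff 1 p * constantCoeff q := by
    intro p q
    rw [coeff_mul, Finset.Nat.antidiagonal_succ]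
    simp
  let δ : B →ₗ[K₁] D₁ :=
    { toFun := fun z => ad K₁ E.v (coeff 1 (σ z))
      map_add' := fun z z' => by
        rw [wd (z + z') (σ z + σ z') (by rw [map_add]; exact A'.add_mem (hσ z) (hσ z'))
          (by rw [map_add, hσ0, hσ0]; rfl), map_add, map_add]
      map_smul' := fun c z => by
        rw [wd (c • z) (PowerSeries.map (algebraMap K₁ D₁) (C c) * σ z)
          (by rw [map_mul, P.L.compat]; exact A'.mul_mem (A'.algebraMap_mem _) (hσ z))
          (by rw [map_mul, hσ0]; simp [Algebra.smul_def]), c1]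
        simp [coeff_C, ← Algebra.smul_def] }
  obtain ⟨γ, hγ⟩ := hInn K₁ D₁ B δ (by
    intro z z'
    show ad K₁ E.v (coeff 1 (σ (z * z'))) = ad K₁ E.v (coeff 1 (σ z)) * z' + z * ad K₁ E.v (coeff 1 (σ z'))
    rw [wd (z * z') (σ z * σ z') (by rw [map_mul]; exact A'.mul_mem (hσ z) (hσ z'))
      (by rw [map_mul, hσ0, hσ0]; rfl), c1, hσ0, hσ0]
    simp only [ad, LinearMap.sub_apply, LinearMap.mulRight_apply, LinearMap.mulLeft_apply]
    have h1 := (hBv _ z.2).eq
    have h2 := (hBv _ z'.2).eq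
    rw [add_mul, mul_add, sub_mul, mul_sub, mul_assoc _ (z' : D₁), h2, ← mul_assoc E.v (z : D₁), ← h1]
    simp only [mul_assoc]
    abel)
  have hval : ∀ (f : NC S.ι S.D) (h1 : P.L.jD (e f) ∈ A') (h2 : E.ψ (f []) ∈ B),
      ad K₁ (E.ψ (f [])) γ
        = (1 - E.ζ) • (E.ψ (∑ j, l j • f [j]) * (E.u ^ 1 * E.v ^ 1)) := by
    intro f h1 h2
    have h3 := hγ ⟨_, h2⟩
    have h4 : δ ⟨_, h2⟩ = ad K₁ E.v (coeff 1 (e f)) := wd ⟨_, h2⟩ _ h1 (hco f).1
    rw [h4, (hco f).2] at h3
    simp only [ad, LinearMap.sub_apply, LinearMap.mulRight_apply, LinearMap.mulLeft_apply] at h3 ⊢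
    rw [← h3, ← mul_assoc E.v, ← (E.cv _).eq, mul_assoc _ E.v, E.vu, pow_one, pow_one, sub_smul,
      one_smul, mul_smul_comm, mul_assoc]
  obtain ⟨c, hc1, hc2⟩ := Submodule.exists_le_ker_of_notMem hl
  obtain ⟨-, -, -, -, -, -, -, -, t9⟩ := hTen 2 S.K S.D K₁ D₁ E (by norm_num)
  obtain ⟨C1, hC1⟩ := t9 ⊤ (c ∘ₗ LinearMap.inl S.K S.D S.D)
  obtain ⟨C2, hC2⟩ := t9 ⊤ (c ∘ₗ LinearMap.inr S.K S.D S.D)
  have hsum : ∀ d d' : S.D, ∀ a b : ℕ, C1 (E.ψ d * (E.u ^ a * E.v ^ b))
      + C2 (E.ψ d' * (E.u ^ a * E.v ^ b)) = E.φ (c (d, d')) • (E.u ^ a * E.v ^ b) := by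
    intro d d' a b
    rw [hC1, hC2, ← add_smul, ← map_add]
    simp only [LinearMap.comp_apply, ← map_add]
    simp
  have hzero : ∀ z : D₁, C1 (ad K₁ (E.ψ (S.x [])) z) + C2 (ad K₁ (E.ψ (S.y [])) z) = 0 := by
    intro z
    have hz := E.span z
    induction hz using Submodule.span_induction with
    | mem x hx =>
      obtain ⟨d, a, -, b, -, rfl⟩ := hx
      have h1 : ∀ w : S.D, ad K₁ (E.ψ w) (E.ψ d * (E.u ^ a * E.v ^ b))
          = E.ψ (ad S.K w d) * (E.u ^ a * E.v ^ b) := by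
        intro w
        simp only [ad, LinearMap.sub_apply, LinearMap.mulRight_apply, LinearMap.mulLeft_apply]
        rw [map_sub, map_mul, map_mul, sub_mul, mul_assoc, ← (E.comm_mono w a b).eq]
        simp only [mul_assoc]
      rw [h1, h1, hsum]
      have h2 : c (ad S.K (S.x []) d, ad S.K (S.y []) d) = 0 := hc2 ⟨d, rfl⟩
      rw [h2, map_zero, zero_smul]
    | zero => simp
    | add y y' _ _ h1 h2 =>
      simp only [map_add]
      rw [add_add_add_comm, h1, h2, add_zero]
    | smul c y _ h1 =>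
      simp only [map_smul]
      rw [← smul_add, h1, smul_zero]
  have h5 := hzero γ
  rw [hval _ hx' hxB, hval _ hy' hyB, map_smul, map_smul, ← smul_add, hsum] at h5
  have hζ : 1 - E.ζ ≠ 0 := sub_ne_zero.2 (E.hζ.ne_one (by norm_num)).symm
  obtain ⟨s, hs, hu⟩ := E.ur
  obtain ⟨s', hs', hv⟩ := E.vr
  have hu0 : E.u ≠ 0 := by
    intro h
    rw [h, zero_pow (by norm_num)] at hu
    exact hs ((algebraMap K₁ D₁).injective (by rw [← hu, map_zero]))
  have hv0 : E.v ≠ 0 := by
    intro h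
    rw [h, zero_pow (by norm_num)] at hv
    exact hs' ((algebraMap K₁ D₁).injective (by rw [← hv, map_zero]))
  exact smul_ne_zero hζ (smul_ne_zero ((map_ne_zero E.φ).2 hc1)
    (mul_ne_zero (pow_ne_zero _ hu0) (pow_ne_zero _ hv0))) h5

end Crest.Agent.Ku
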