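import Crest.Agent.Ku.Defs

set_option autoImplicit false
set_option linter.style.haveILetI false

namespace Crest.Agent.Ku
open Module

theorem inn (hA : AlgStmt) : InnStmt := by
  intro K D _ _ _ _ _ A δ hδ
  classical
  obtain ⟨hinv, -⟩ := hA K D
  let t : D →ₗ[K] K := (LinearMap.trace K D).comp (LinearMap.mul K D)
  have ht : ∀ x y : D, t (x * y) = t (y * x) := fun x y => by
    show LinearMap.trace K D (LinearMap.mulLeft K (x * y)) =
      LinearMap.trace K D (LinearMap.mulLeft K (y * x))
    rw [LinearMap.mulLeft_mul, LinearMap.mulLeft_mul]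
    exact LinearMap.trace_comp_comm' _ _
  have ht1 : t 1 ≠ 0 := by
    show LinearMap.trace K D (LinearMap.mulLeft K (1 : D)) ≠ 0
    rw [LinearMap.mulLeft_one, LinearMap.trace_id]
    have : 0 < finrank K D := finrank_pos
    exact_mod_cast this.ne'
  let B : LinearMap.BilinForm K A := (LinearMap.mul K A).compr₂ (t.comp A.val.toLinearMap)
  have hB : ∀ x y : A, B x y = t (x.1 * y.1) := fun x y => rfl
  have hnd : B.Nondegenerate := by
    constructor
    · intro x hx
      by_contra h0
      have h1 : x.1 ≠ 0 := fun h => h0 (Subtype.ext h)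
      have := hx ⟨x.1⁻¹, hinv A _ x.2⟩
      rw [hB, mul_inv_cancel₀ h1] at this
      exact ht1 this
    · intro x hx
      by_contra h0
      have h1 : x.1 ≠ 0 := fun h => h0 (Subtype.ext h)
      have := hx ⟨x.1⁻¹, hinv A _ x.2⟩
      rw [hB, inv_mul_cancel₀ h1] at this
      exact ht1 this
  let e := Module.finBasis K A
  let f := B.dualBasis hnd e
  have hfe : ∀ i j, B (f i) (e j) = if j = i then 1 else 0 := fun i j =>
    B.apply_dualBasis_left hnd e i j
  have hrf : ∀ x i, f.repr x i = B x (e i) := fun x i => B.dualBasis_repr_apply hnd e x i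
  have hre : ∀ x j, e.repr x j = B (f j) x := fun x j => by
    conv_rhs => rw [← e.sum_repr x]
    rw [map_sum]
    simp only [map_smul, hfe]
    simp
  have cas : ∀ (β : A →ₗ[K] A →ₗ[K] D) (a : A),
      ∑ i, β (a * e i) (f i) = ∑ j, β (e j) (f j * a) := by
    intro β a
    have h1 : ∀ i, β (a * e i) (f i) = ∑ j, B (f j) (a * e i) • β (e j) (f i) := fun i => by
      conv_lhs => rw [← e.sum_repr (a * e i)]
      simp only [map_sum, map_smul, LinearMap.sum_apply, LinearMap.smul_apply, hre]
    have h2 : ∀ j, β (e j) (f j * a) = ∑ i, B (f j * a) (e i) • β (e j) (f i) := fun j => by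
      conv_lhs => rw [← f.sum_repr (f j * a)]
      simp only [map_sum, map_smul, hrf]
    simp only [h1, h2]
    rw [Finset.sum_comm]
    refine Finset.sum_congr rfl fun j _ => Finset.sum_congr rfl fun i _ => ?_
    rw [hB, hB, Subalgebra.coe_mul, Subalgebra.coe_mul, mul_assoc]
  let z : D := ∑ i, (e i).1 * (f i).1
  let g : D := ∑ i, δ (e i) * (f i).1
  have hz0 : z ≠ 0 := by
    intro h
    have h1 : t z = finrank K A := by
      simp only [z, map_sum]
      have : ∀ i, t ((e i).1 * (f i).1) = 1 := fun i => by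
        rw [ht, ← hB, hfe, if_pos rfl]
      simp [this]
    rw [h, map_zero] at h1
    have : 0 < finrank K A := finrank_pos
    exact this.ne (by exact_mod_cast h1)
  have hza : ∀ a : A, a.1 * z = z * a.1 := fun a => by
    have := cas ((LinearMap.mul K D).compl₁₂ A.val.toLinearMap A.val.toLinearMap) a
    simp only [z, Finset.mul_sum, Finset.sum_mul]
    simpa [mul_assoc] using this
  have hg : ∀ a : A, δ a * z + a.1 * g = g * a.1 := fun a => by
    have := cas ((LinearMap.mul K D).compl₁₂ δ A.val.toLinearMap) a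
    simp only [z, g, Finset.mul_sum, Finset.sum_mul, ← Finset.sum_add_distrib]
    simpa [mul_assoc, hδ, add_mul] using this
  refine ⟨g * z⁻¹, fun a => ?_⟩
  have h1 : z⁻¹ * a.1 = a.1 * z⁻¹ := (Commute.inv_right₀ (hza a)).eq.symm
  rw [mul_assoc, h1, ← mul_assoc, ← mul_assoc, ← sub_mul, ← hg a, add_sub_cancel_right, mul_assoc,
    mul_inv_cancel₀ hz0, mul_one]

end Crest.Agent.Ku
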