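import Crest.Agent.Ku.Defs

set_option autoImplicit false

namespace Crest.Agent.Ku
open Module

namespace IsoAux

lemma rank_restrict {K A Y Z : Type} [Field K] [AddCommGroup A] [Module K A] [FiniteDimensional K A]
    [AddCommGroup Y] [Module K Y] [FiniteDimensional K Y] [AddCommGroup Z] [Module K Z]
    (g : A →ₗ[K] Z) (P : A →ₗ[K] Y) :
    finrank K (LinearMap.range g) ≤ finrank K (LinearMap.range (g.domRestrict (LinearMap.ker P))) +
      finrank K Y := by
  have h1 := g.finrank_range_add_finrank_ker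
  have h2 := P.finrank_range_add_finrank_ker
  have h3 := (g.domRestrict (LinearMap.ker P)).finrank_range_add_finrank_ker
  have h4 : finrank K (LinearMap.range P) ≤ finrank K Y := Submodule.finrank_le _
  have h5 : finrank K (LinearMap.ker (g.domRestrict (LinearMap.ker P))) ≤ finrank K (LinearMap.ker g) := by
    rw [← Submodule.finrank_map_subtype_eq]
    refine Submodule.finrank_mono ?_
    rintro _ ⟨x, hx, rfl⟩
    exact hx
  omega

lemma rank_ge {K A Y : Type} [Field K] [AddCommGroup A] [Module K A]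
    [AddCommGroup Y] [Module K Y] [FiniteDimensional K Y] {n : ℕ} (G : A →ₗ[K] Y) (a : Fin n → A)
    (φ : Fin n → Y →ₗ[K] K) (hd : (Matrix.of fun i k => φ k (G (a i))).det ≠ 0) :
    n ≤ finrank K (LinearMap.range G) := by
  have hli : LinearIndependent K fun i => G (a i) := by
    rw [Fintype.linearIndependent_iff]
    intro g hg
    have : Matrix.vecMul g (Matrix.of fun i k => φ k (G (a i))) = 0 := by
      funext k
      have h1 := congrArg (φ k) hg
      simpa [Matrix.vecMul, dotProduct] using h1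
    intro i
    exact congrFun (Matrix.eq_zero_of_vecMul_eq_zero hd this) i
  have h1 := finrank_span_eq_card hli
  rw [Fintype.card_fin] at h1
  rw [← h1]
  refine Submodule.finrank_mono (Submodule.span_le.2 ?_)
  rintro _ ⟨i, rfl⟩
  exact ⟨_, rfl⟩

lemma step (hAmi : AmiStmt) (hRk : RkStmt) {K A Y Z : Type} [Field K] [CharZero K] [AddCommGroup A]
    [Module K A] [FiniteDimensional K A] [AddCommGroup Y] [Module K Y] [FiniteDimensional K Y]
    [AddCommGroup Z] [Module K Z] [FiniteDimensional K Z] {κ M m : ℕ}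
    (B : A →ₗ[K] A →ₗ[K] (Fin κ → K)) (t : A →ₗ[K] Y) (τ : A →ₗ[K] Z)
    (hB : ∀ cc : Fin κ → K, cc ≠ 0 → ∃ x y : Fin M → A,
      (Matrix.of fun i k => ∑ j, cc j * B (x i) (y k) j).det ≠ 0)
    (hτ : M ≤ finrank K (LinearMap.range τ))
    (hM : m + (κ + 1) + 2 * (finrank K Y + m * κ) ≤ M) (ξ : Fin m → A) :
    ∃ x, t x = 0 ∧ (∀ k, B (ξ k) x = 0) ∧ τ x ∉ Submodule.span K (Set.range fun k => τ (ξ k)) ∧
      ∀ y, ∃ ζ, t ζ = 0 ∧ (∀ k, B (ξ k) ζ = 0) ∧ B x ζ = y := by
  classical
  let P : A →ₗ[K] Y × (Fin m → Fin κ → K) := t.prod (LinearMap.pi fun k => B (ξ k))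
  have hPdim : finrank K (Y × (Fin m → Fin κ → K)) = finrank K Y + m * κ := by
    rw [finrank_prod, Module.finrank_pi_fintype]; simp
  have hP : ∀ x, x ∈ LinearMap.ker P ↔ t x = 0 ∧ ∀ k, B (ξ k) x = 0 := by
    intro x
    rw [LinearMap.mem_ker, Prod.ext_iff]
    exact and_congr Iff.rfl ⟨fun h k => congrFun h k, fun h => funext h⟩
  set U := LinearMap.ker P with hU
  let Bj : Fin κ → U →ₗ[K] Dual K U := fun j => (B.compr₂ (LinearMap.proj j)).domRestrict₁₂ U U
  let T : Fin (κ + 1) → U →ₗ[K] Dual K U × Z :=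
    Matrix.vecCons ((LinearMap.inr K _ _).comp (τ.domRestrict U))
      fun j => (LinearMap.inl K _ _).comp (Bj j)
  let Z₀ : Submodule K Z := Submodule.span K (Set.range fun k => τ (ξ k))
  have hZ₀ : finrank K Z₀ ≤ m := by
    have := finrank_range_le_card (R := K) fun k => τ (ξ k)
    rw [Fintype.card_fin] at this
    exact this
  let Y₀ : Submodule K (Dual K U × Z) := Z₀.map (LinearMap.inr K _ _)
  have hY₀ : finrank K Y₀ ≤ m := (Submodule.finrank_map_le _ _).trans hZ₀
  obtain ⟨x, hx⟩ := hAmi K U (Dual K U × Z) (κ + 1) T Y₀ (by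
    intro c hc
    by_cases h0 : c 0 = 0
    · have hc' : (fun j : Fin κ => c j.succ) ≠ 0 := by
        intro h; apply hc; funext i
        refine Fin.cases h0 (fun j => congrFun h j) i
      obtain ⟨x, y, hxy⟩ := hB _ hc'
      let β : A →ₗ[K] A →ₗ[K] K := ∑ j : Fin κ, c j.succ • B.compr₂ (LinearMap.proj j)
      have hβ : ∀ a b, β a b = ∑ j : Fin κ, c j.succ * B a b j := by
        intro a b; simp [β, LinearMap.sum_apply]
      obtain ⟨x', y', hx', hy', hd⟩ := hRk K A A β (Fin M) x y _ P P (m + (κ + 1))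
        (by simpa only [hβ] using hxy) (by rw [hPdim, Fintype.card_fin]; exact hM)
      have hxU : ∀ i, x' i ∈ U := hx'
      have hyU : ∀ i, y' i ∈ U := hy'
      have := rank_ge (∑ i, c i • T i) (fun i => ⟨x' i, hxU i⟩)
        (fun k => (LinearMap.applyₗ (R := K) (M₂ := K) (⟨y' k, hyU k⟩ : U)).comp (LinearMap.fst K _ _)) (by
          have e : (Matrix.of fun i k => ((LinearMap.applyₗ (R := K) (M₂ := K) (⟨y' k, hyU k⟩ : U)).comp
              (LinearMap.fst K _ _)) ((∑ i, c i • T i) ⟨x' i, hxU i⟩)) =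
              Matrix.of fun i k => β (x' i) (y' k) := by
            ext i k
            rw [Matrix.of_apply, Matrix.of_apply, hβ, LinearMap.sum_apply, map_sum, Fin.sum_univ_succ, h0,
              zero_smul, LinearMap.zero_apply, map_zero, zero_add]
            rfl
          rw [e]; exact hd)
      omega
    · have h1 : LinearMap.range (τ.domRestrict U) ≤
          (LinearMap.range (∑ i, c i • T i)).map (LinearMap.snd K _ _) := by
        rintro _ ⟨u, rfl⟩
        refine ⟨_, ⟨(c 0)⁻¹ • u, rfl⟩, ?_⟩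
        simp [T, Fin.sum_univ_succ, LinearMap.sum_apply, Prod.snd_sum, smul_smul, h0]
      have h2 := (Submodule.finrank_mono h1).trans (Submodule.finrank_map_le _ _)
      have h3 := rank_restrict τ P
      rw [hPdim, ← hU] at h3
      omega)
  refine ⟨x, ((hP x).1 x.2).1, ((hP x).1 x.2).2, fun h => ?_, ?_⟩
  · refine hx.ne_zero 0 ?_
    rw [Submodule.mkQ_apply, Submodule.Quotient.mk_eq_zero]
    exact ⟨τ x, h, by simp [T]⟩
  · have hsurj : LinearMap.range ((B x).domRestrict U) = ⊤ := by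
      by_contra hne
      obtain ⟨f, hf0, hf⟩ := Submodule.exists_le_ker_of_lt_top _ (lt_top_iff_ne_top.2 hne)
      rw [Fintype.linearIndependent_iff] at hx
      have h1 := hx (Matrix.vecCons 0 fun j => f (Pi.single j 1)) (by
        rw [Fin.sum_univ_succ]
        simp only [Matrix.cons_val_zero, zero_smul, zero_add, Matrix.cons_val_succ, T]
        have : ∑ j, f (Pi.single j 1) • Bj j x = 0 := by
          ext u
          have h2 : f (B x u) = 0 := hf ⟨u, rfl⟩
          rw [LinearMap.pi_apply_eq_sum_univ] at h2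
          simp only [LinearMap.sum_apply, LinearMap.smul_apply, LinearMap.zero_apply, smul_eq_mul]
          rw [← h2]
          refine Finset.sum_congr rfl fun j _ => ?_
          rw [smul_eq_mul, mul_comm]
          have : (Pi.single j 1 : Fin κ → K) = fun i => if j = i then 1 else 0 := by
            funext i; simp [Pi.single_apply, eq_comm]
          rw [this]; rfl
        have h3 := congrArg (Y₀.mkQ.comp (LinearMap.inl K (Dual K U) Z)) this
        rw [map_sum, map_zero] at h3
        simp only [map_smul] at h3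
        exact h3)
      apply hf0
      ext j
      simpa using h1 j.succ
    intro y
    obtain ⟨u, hu⟩ := (hsurj.symm ▸ Submodule.mem_top : y ∈ LinearMap.range ((B x).domRestrict U))
    exact ⟨u, ((hP u).1 u.2).1, ((hP u).1 u.2).2, hu⟩

lemma ind (hAmi : AmiStmt) (hRk : RkStmt) {K A Y Z : Type} [Field K] [CharZero K] [AddCommGroup A]
    [Module K A] [FiniteDimensional K A] [AddCommGroup Y] [Module K Y] [FiniteDimensional K Y]
    [AddCommGroup Z] [Module K Z] [FiniteDimensional K Z] {κ M n : ℕ}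
    (B : A →ₗ[K] A →ₗ[K] (Fin κ → K)) (t : A →ₗ[K] Y) (τ : A →ₗ[K] Z)
    (hB : ∀ cc : Fin κ → K, cc ≠ 0 → ∃ x y : Fin M → A,
      (Matrix.of fun i k => ∑ j, cc j * B (x i) (y k) j).det ≠ 0)
    (hτ : M ≤ finrank K (LinearMap.range τ)) (halt : ∀ x, t x = 0 → B x x = 0)
    (hM : n + (κ + 1) + 2 * (finrank K Y + n * κ) ≤ M) : ∀ m ≤ n + 1, ∃ ξ : Fin m → A,
      (∀ i, t (ξ i) = 0) ∧ (∀ i k, B (ξ i) (ξ k) = 0) ∧
      (∀ i y, ∃ ζ, t ζ = 0 ∧ B (ξ i) ζ = y ∧ ∀ k ≠ i, B (ξ k) ζ = 0) ∧
      LinearIndependent K fun i => τ (ξ i) := by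
  have hanti : ∀ x y, t x = 0 → t y = 0 → B x y = - B y x := by
    intro x y hx hy
    have := halt (x + y) (by rw [map_add, hx, hy, add_zero])
    simp only [map_add, LinearMap.add_apply, halt x hx, halt y hy, zero_add, add_zero] at this
    first
      | exact eq_neg_of_add_eq_zero_left this
      | exact eq_neg_of_add_eq_zero_right this
  intro m
  induction m with
  | zero => intro _; exact ⟨Fin.elim0, fun i => i.elim0, fun i => i.elim0, fun i => i.elim0,
      linearIndependent_empty_type⟩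
  | succ m ih =>
    intro hm
    obtain ⟨ξ, h1, h2, h3, h4⟩ := ih (by omega)
    have hmn : m * κ ≤ n * κ := Nat.mul_le_mul_right _ (by omega)
    obtain ⟨x, hx1, hx2, hx3, hx4⟩ := step hAmi hRk B t τ hB hτ (m := m) (by omega) ξ
    refine ⟨Matrix.vecCons x ξ, ?_, ?_, ?_, ?_⟩
    · intro i; refine Fin.cases ?_ (fun j => ?_) i
      · simpa using hx1
      · simpa using h1 j
    · intro i k
      refine Fin.cases ?_ (fun j => ?_) i <;> refine Fin.cases ?_ (fun j' => ?_) k
      · simpa using halt x hx1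
      · simp only [Matrix.cons_val_zero, Matrix.cons_val_succ]
        rw [hanti _ _ hx1 (h1 _), hx2, neg_zero]
      · simpa using hx2 j
      · simpa using h2 j j'
    · intro i y
      refine Fin.cases ?_ (fun j => ?_) i
      · obtain ⟨ζ, a1, a2, a3⟩ := hx4 y
        refine ⟨ζ, a1, by simpa using a3, fun k hk => ?_⟩
        obtain ⟨k, rfl⟩ := Fin.exists_succ_eq.2 hk
        simpa using a2 k
      · obtain ⟨ζ, a1, a2, a3⟩ := h3 j y
        obtain ⟨ζ', b1, b2, b3⟩ := hx4 (B x ζ)
        refine ⟨ζ - ζ', by rw [map_sub, a1, b1, sub_zero], by simp [a2, b2], fun k => ?_⟩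
        refine Fin.cases (fun _ => ?_) (fun k' hk => ?_) k
        · simp [b3]
        · have : k' ≠ j := fun h => hk (by rw [h])
          simp [a3 k' this, b2]
    · have : (fun i => τ (Matrix.vecCons x ξ i)) = Fin.cons (τ x) fun i => τ (ξ i) := by
        funext i; refine Fin.cases ?_ (fun j => ?_) i <;> simp
      rw [this, linearIndependent_finCons]
      exact ⟨h4, hx3⟩

lemma exists_pi {K D : Type} [Field K] [AddCommGroup D] [Module K D] [FiniteDimensional K D]
    (W V : Submodule K D) (h : W ≤ V) : ∃ π : D →ₗ[K] (Fin (finrank K V - finrank K W) → K),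
      (∀ z ∈ V, π z = 0 ↔ z ∈ W) ∧ ∀ y, ∃ z ∈ V, π z = y := by
  have h1 : finrank K (V ⧸ W.comap V.subtype) = finrank K V - finrank K W := by
    have := (W.comap V.subtype).finrank_quotient_add_finrank
    rw [(Submodule.comapSubtypeEquivOfLe h).finrank_eq] at this
    omega
  let e : (V ⧸ W.comap V.subtype) ≃ₗ[K] (Fin (finrank K V - finrank K W) → K) :=
    LinearEquiv.ofFinrankEq _ _ (by rw [h1]; simp)
  obtain ⟨π, hπ⟩ := LinearMap.exists_extend (e.toLinearMap.comp (W.comap V.subtype).mkQ)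
  have h2 : ∀ z : V, π z = e ((W.comap V.subtype).mkQ z) := fun z => LinearMap.congr_fun hπ z
  refine ⟨π, fun z hz => ?_, fun y => ?_⟩
  · rw [h2 ⟨z, hz⟩, e.map_eq_zero_iff, Submodule.mkQ_apply, Submodule.Quotient.mk_eq_zero]; rfl
  · obtain ⟨z, hz⟩ := (W.comap V.subtype).mkQ_surjective (e.symm y)
    exact ⟨z, z.2, by rw [h2, hz, e.apply_symm_apply]⟩

noncomputable def tL (S : St) : (S.ι → S.K) →ₗ[S.K] S.D where
  toFun := S.t
  map_add' a b := by simp [St.t, add_smul, Finset.sum_add_distrib]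
  map_smul' k a := by simp [St.t, Finset.smul_sum, mul_smul]

noncomputable def tauL (S : St) : (S.ι → S.K) →ₗ[S.K] S.D × S.D where
  toFun := S.tau
  map_add' a b := by simp [St.tau, add_smul, Finset.sum_add_distrib]
  map_smul' k a := by simp [St.tau, Finset.smul_sum, mul_smul]

noncomputable def qL (S : St) : (S.ι → S.K) →ₗ[S.K] (S.ι → S.K) →ₗ[S.K] S.D :=
  LinearMap.mk₂ S.K S.q
    (fun a b c => by simp [St.q, add_mul, add_smul, Finset.sum_add_distrib])
    (fun k a b => by simp [St.q, Finset.smul_sum, smul_smul, mul_assoc])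
    (fun a b c => by simp [St.q, mul_add, add_smul, Finset.sum_add_distrib])
    (fun k a b => by simp [St.q, Finset.smul_sum, smul_smul, mul_left_comm])

lemma rank_sup {K Z : Type} [Field K] [AddCommGroup Z] [Module K Z] [FiniteDimensional K Z]
    (I T : Submodule K Z) : finrank K ↥(T ⊔ I) = finrank K (T.map I.mkQ) + finrank K I := by
  have h1 := (I.mkQ.domRestrict (T ⊔ I)).finrank_range_add_finrank_ker
  have h2 : LinearMap.range (I.mkQ.domRestrict (T ⊔ I)) = T.map I.mkQ := by
    rw [LinearMap.range_domRestrict, Submodule.map_sup, Submodule.mkQ_map_self, sup_bot_eq]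
  have h3 : finrank K (LinearMap.ker (I.mkQ.domRestrict (T ⊔ I))) = finrank K I := by
    rw [LinearMap.ker_domRestrict, Submodule.ker_mkQ]
    exact (Submodule.comapSubtypeEquivOfLe le_sup_right).finrank_eq
  rw [← h1, h2, h3]

end IsoAux
open IsoAux

theorem iso (hB : Base) (hR : RelStmt) (hC : CenStmt) (hA : AltStmt) : IsoStmt := by
  intro S ⟨hg, hp, hk, hnd, hroom⟩ hpoly
  classical
  obtain ⟨-, -, -, -, -, -, -, hAlg, -, -, hAmi, -, hRk, -⟩ := hB
  obtain ⟨-, hVf, hWV, hfc, -, -, htW, -⟩ := hC S hg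
  obtain ⟨hA1, hA2⟩ := hA S hg hp hk
  obtain ⟨π, hπ1, hπ2⟩ := exists_pi S.W S.V hWV
  have hκ : finrank S.K S.V - finrank S.K S.W = S.f - S.w := by rw [hVf]; rfl
  have hwf : finrank S.K S.W ≤ S.c := (Submodule.finrank_mono hWV).trans (hVf ▸ hfc)
  have hzero : ∀ l, S.t l ∈ LinearMap.range (ad S.K S.a) → S.t l = 0 := fun l hl =>
    (Submodule.disjoint_def.1 ((hAlg S.K S.D).2.2.1 S.a).disjoint) _ (htW l).2 hl
  let t' : (S.ι → S.K) →ₗ[S.K] S.W := (tL S).codRestrict S.W htW
  have ht' : ∀ l, t' l = 0 ↔ S.t l = 0 := fun l => by rw [Subtype.ext_iff]; rfl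
  let B := (qL S).compr₂ π
  have hBq : ∀ a b, B a b = π (S.q a b) := fun a b => rfl
  let τ := S.Inn.mkQ.comp (tauL S)
  have hInn : finrank S.K S.Inn ≤ finrank S.K S.D := LinearMap.finrank_range_le _
  obtain ⟨ξ, h1, h2, h3, h4⟩ := ind hAmi hRk (M := 4 * (S.c + 2) * (S.f - S.w + 1)) (n := S.c) B t' τ
    (by
      intro cc hcc
      let c : S.D →ₗ[S.K] S.K := ∑ j, cc j • (LinearMap.proj j).comp π
      have hc : ∀ z, c z = ∑ j, cc j * π z j := fun z => by simp [c, LinearMap.sum_apply]
      obtain ⟨c', hc1, -, l, l', γ, hl, hl', hdet⟩ := hnd c (fun z hz => by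
          rw [LinearMap.mem_ker, hc, (hπ1 z (hWV hz)).2 hz]; simp) (by
          obtain ⟨j, hj⟩ := Function.ne_iff.1 hcc
          obtain ⟨z, hz, hz'⟩ := hπ2 (Pi.single j 1)
          refine ⟨z, hz, ?_⟩
          rw [hc, hz']
          simpa [Pi.single_apply] using hj)
      refine ⟨l, l', ?_⟩
      refine ne_of_eq_of_ne (congrArg Matrix.det ?_) hdet
      ext i k
      rw [Matrix.of_apply, Matrix.of_apply]
      have a1 := hzero _ (hl i)
      have a2 := hzero _ (hl' k ▸ LinearMap.mem_range_self _ _)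
      rw [a1, zero_mul, add_zero, hc1 _ (hA2 _ _ a1 a2), hc]
      rfl)
    (by
      have e1 : Submodule.span S.K (Set.range S.tau) = LinearMap.range (tauL S) :=
        Submodule.span_eq (LinearMap.range (tauL S))
      unfold St.room at hroom
      rw [rank_sup, e1, ← LinearMap.range_comp] at hroom
      change _ ≤ finrank S.K (LinearMap.range τ) + _ at hroom
      omega)
    (fun x hx => by
      have := hA1 x ((ht' x).1 hx)
      rw [hBq]; exact (hπ1 _ (hWV this)).2 this)
    (by
      rw [hκ]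
      generalize S.f - S.w = κ
      nlinarith) (S.c + 1) le_rfl
  have h1' : ∀ i, S.t (ξ i) = 0 := fun i => (ht' _).1 (h1 i)
  have hanti : ∀ x y, S.t x = 0 → S.t y = 0 → S.q x y + S.q y x ∈ S.W := by
    intro x y hx hy
    have := hA1 (x + y) (by
      change tL S (x + y) = 0
      rw [map_add]; change S.t x + S.t y = 0; rw [hx, hy, add_zero])
    change qL S (x + y) (x + y) ∈ S.W at this
    simp only [map_add, LinearMap.add_apply] at this
    have h5 := S.W.sub_mem (S.W.sub_mem this (hA1 x hx)) (hA1 y hy)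
    convert h5 using 1
    change qL S x y + qL S y x = _ - qL S x x - qL S y y
    abel
  refine ⟨S.c + 1, ξ, h1', fun i k => (hπ1 _ (hA2 _ _ (h1' i) (h1' k))).1 (h2 i k), ?_, ?_⟩
  · intro i z hz
    obtain ⟨ζ, a1, a2, a3⟩ := h3 i (π z)
    have a1' := (ht' _).1 a1
    have b1 : S.q (ξ i) ζ - z ∈ S.W := by
      refine (hπ1 _ (S.V.sub_mem (hA2 _ _ (h1' i) a1') hz)).1 ?_
      rw [map_sub, ← hBq, a2, sub_self]
    refine ⟨ζ, a1', b1, ?_, fun k hk => ?_⟩
    · convert S.W.sub_mem (hanti _ _ (h1' i) a1') b1 using 1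
      abel
    · have b2 : S.q (ξ k) ζ ∈ S.W := (hπ1 _ (hA2 _ _ (h1' k) a1')).1 (a3 k hk)
      refine ⟨b2, ?_⟩
      convert S.W.sub_mem (hanti _ _ (h1' k) a1') b2 using 1
      abel
  · rw [rank_sup, Submodule.map_span, ← Set.range_comp]
    have e2 := finrank_span_eq_card h4
    rw [Fintype.card_fin] at e2
    have e3 := hR.2.2.2.2 S hpoly
    change _ ≤ finrank S.K (Submodule.span S.K (Set.range fun i => τ (ξ i))) + _
    omega

end Crest.Agent.Ku
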