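import Crest.Agent.Ku.Defs

/-! S0270: normal form of a power series under conjugation. -/

set_option autoImplicit false

namespace Crest.Agent.Ku.H6
open Module PowerSeries

/-- strong recursion with zero default -/
noncomputable def rec6 {β : Type} [Zero β] (G : ℕ → (ℕ → β) → β) (n : ℕ) : β :=
  G n fun i => if _h : i < n then rec6 G i else 0
termination_by n

lemma rec6_eq {β : Type} [Zero β] (G : ℕ → (ℕ → β) → β) (n : ℕ) :
    rec6 G n = G n fun i => if i < n then rec6 G i else 0 := by
  rw [rec6]; simp only [dite_eq_ite]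

lemma split_trunc {D : Type} [Ring D] (p : ℕ → D) (n : ℕ) :
    ∃ h : D⟦X⟧, mk p = (mk fun i => if i < n then p i else 0) + X ^ n * h ∧
      constantCoeff h = p n := by
  refine ⟨mk fun i => p (i + n), ?_, by rw [← coeff_zero_eq_constantCoeff_apply, coeff_mk, zero_add]⟩
  ext i
  rw [map_add, coeff_mk, coeff_mk, coeff_X_pow_mul']
  by_cases h : i < n
  · rw [if_pos h, if_neg (by omega), add_zero]
  · rw [if_neg h, if_pos (by omega), coeff_mk, zero_add, Nat.sub_add_cancel (by omega)]

lemma coeff_mul_mem {K D : Type} [Field K] [Ring D] [Algebra K D] (A : Subalgebra K D)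
    (f g : D⟦X⟧) (hf : ∀ i, coeff i f ∈ A) (hg : ∀ i, coeff i g ∈ A) (n : ℕ) :
    coeff n (f * g) ∈ A := by
  rw [coeff_mul]
  exact A.sum_mem fun p _ => A.mul_mem (hf _) (hg _)

theorem nfp (hA : AlgStmt) : NfpStmt := by
  intro K D _ _ _ _ _ A s hs
  obtain ⟨a, ha⟩ : ∃ a, a = constantCoeff s := ⟨_, rfl⟩
  have haA : a ∈ A := by rw [ha, ← coeff_zero_eq_constantCoeff_apply]; exact hs 0
  have hdec : ∀ z : D, ∃ p : D × D, z ∈ A → p.1 ∈ A ∧ p.2 ∈ A ∧ Commute p.2 a ∧
      z = p.2 + (p.1 * a - a * p.1) := by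
    intro z
    by_cases hz : z ∈ A
    swap
    · exact ⟨0, fun h => absurd h hz⟩
    let f : A →ₗ[K] A := LinearMap.mulRight K (⟨a, haA⟩ : A) - LinearMap.mulLeft K (⟨a, haA⟩ : A)
    have hf : ∀ x : A, ((f x : A) : D) = x * a - a * x := fun x => rfl
    have hdis : Disjoint (LinearMap.ker f) (LinearMap.range f) := by
      rw [Submodule.disjoint_def]
      rintro x hx ⟨y, rfl⟩
      have h1 := Submodule.disjoint_def.1 ((hA K D).2.2.1 a).disjoint ((f y : A) : D) (by
        show ((f y : A) : D) ∈ Subalgebra.centralizer K {a}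
        rw [Subalgebra.mem_centralizer_iff]
        rintro _ rfl
        have h2 := congrArg (fun x : A => (x : D)) (LinearMap.mem_ker.1 hx)
        simp only [hf (f y), ZeroMemClass.coe_zero] at h2
        exact (sub_eq_zero.1 h2).symm) ⟨y, rfl⟩
      exact Subtype.ext h1
    have htop := Submodule.eq_top_of_disjoint _ _ (by
      have := LinearMap.finrank_range_add_finrank_ker f
      omega) hdis
    have hm : (⟨z, hz⟩ : A) ∈ LinearMap.ker f ⊔ LinearMap.range f := by
      rw [htop]; exact Submodule.mem_top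
    obtain ⟨c, hc, _, ⟨y, rfl⟩, h⟩ := Submodule.mem_sup.1 hm
    refine ⟨((y : D), (c : D)), fun _ => ⟨y.2, c.2, ?_, ?_⟩⟩
    · have h2 := congrArg (fun x : A => (x : D)) (LinearMap.mem_ker.1 hc)
      simp only [hf c, ZeroMemClass.coe_zero] at h2
      exact sub_eq_zero.1 h2
    · exact (congrArg (fun x : A => (x : D)) h).symm
  choose π hπ using hdec
  let G : ℕ → (ℕ → D × D) → D × D := fun n p => if n = 0 then (1, a) else
    π (coeff n (s * mk (fun i => (p i).1) - mk (fun i => (p i).1) * mk (fun i => (p i).2)))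
  obtain ⟨p, hp⟩ : ∃ p : ℕ → D × D, ∀ n, p n = G n fun i => if i < n then p i else 0 :=
    ⟨rec6 G, rec6_eq G⟩
  have hp0 : p 0 = (1, a) := by rw [hp 0]; simp [G]
  have hpn : ∀ n, n ≠ 0 → p n = π (coeff n (s * mk (fun i => if i < n then (p i).1 else 0) -
      mk (fun i => if i < n then (p i).1 else 0) * mk (fun i => if i < n then (p i).2 else 0))) := by
    intro n hn
    rw [hp n]
    simp only [G, if_neg hn, apply_ite Prod.fst, apply_ite Prod.snd, Prod.fst_zero, Prod.snd_zero]
  have hR : ∀ n, (∀ i < n, (p i).1 ∈ A ∧ (p i).2 ∈ A) →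
      coeff n (s * mk (fun i => if i < n then (p i).1 else 0) -
      mk (fun i => if i < n then (p i).1 else 0) * mk (fun i => if i < n then (p i).2 else 0)) ∈ A := by
    intro n ih
    have h1 : ∀ i, coeff i (mk (fun i => if i < n then (p i).1 else 0)) ∈ A := by
      intro i; rw [coeff_mk]; split_ifs with h
      · exact (ih i h).1
      · exact A.zero_mem
    have h2 : ∀ i, coeff i (mk (fun i => if i < n then (p i).2 else 0)) ∈ A := by
      intro i; rw [coeff_mk]; split_ifs with h
      · exact (ih i h).2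
      · exact A.zero_mem
    rw [map_sub]
    exact A.sub_mem (coeff_mul_mem A _ _ hs h1 n) (coeff_mul_mem A _ _ h1 h2 n)
  have hmem : ∀ n, (p n).1 ∈ A ∧ (p n).2 ∈ A := by
    intro n
    induction n using Nat.strong_induction_on with
    | _ n ih =>
      by_cases hn : n = 0
      · rw [hn, hp0]; exact ⟨A.one_mem, haA⟩
      · have := hπ _ (hR n ih)
        rw [← hpn n hn] at this
        exact ⟨this.1, this.2.1⟩
  have hcomm : ∀ n, Commute (p n).2 a := by
    intro n
    by_cases hn : n = 0
    · rw [hn, hp0]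
    · have := hπ _ (hR n fun i _ => hmem i)
      rw [← hpn n hn] at this
      exact this.2.2.1
  obtain ⟨g, hg⟩ : ∃ g : D⟦X⟧, g = mk fun i => (p i).1 := ⟨_, rfl⟩
  obtain ⟨s', hs'⟩ : ∃ s' : D⟦X⟧, s' = mk fun i => (p i).2 := ⟨_, rfl⟩
  have hg0 : constantCoeff g = 1 := by
    rw [hg, ← coeff_zero_eq_constantCoeff_apply, coeff_mk, hp0]
  have hs0 : constantCoeff s' = a := by
    rw [hs', ← coeff_zero_eq_constantCoeff_apply, coeff_mk, hp0]
  have hkey : s * g = g * s' := by
    rw [← sub_eq_zero]
    ext n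
    rw [map_zero]
    by_cases hn : n = 0
    · rw [hn, coeff_zero_eq_constantCoeff_apply, map_sub, map_mul, map_mul, hg0, hs0, ← ha]
      simp
    · obtain ⟨g1, hg1, hg2⟩ := split_trunc (fun i => (p i).1) n
      obtain ⟨s1, hs1, hs2⟩ := split_trunc (fun i => (p i).2) n
      rw [← hg] at hg1
      rw [← hs'] at hs1
      have h3 := (hπ _ (hR n fun i _ => hmem i)).2.2.2
      rw [← hpn n hn] at h3
      set gl : D⟦X⟧ := mk (fun i => if i < n then (p i).1 else 0) with hgl
      set sl : D⟦X⟧ := mk (fun i => if i < n then (p i).2 else 0) with hsl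
      have hgl0 : constantCoeff gl = 1 := by
        rw [hgl, ← coeff_zero_eq_constantCoeff_apply, coeff_mk, if_pos (by omega), hp0]
      have e1 : s * g - g * s' = (s * gl - gl * sl) + X ^ n * (s * g1 - g1 * s' - gl * s1) := by
        have c1 : s * (X ^ n * g1) = X ^ n * (s * g1) := by
          rw [← mul_assoc, (commute_X_pow s n).eq, mul_assoc]
        have c2 : gl * (X ^ n * s1) = X ^ n * (gl * s1) := by
          rw [← mul_assoc, (commute_X_pow gl n).eq, mul_assoc]
        have c3 : gl * s' = gl * sl + X ^ n * (gl * s1) := by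
          rw [← c2, ← mul_add, ← hs1]
        rw [hg1, mul_add, add_mul, c1, c3, mul_sub, mul_sub, mul_assoc]
        abel
      rw [e1, map_add, h3, coeff_X_pow_mul', if_pos le_rfl, Nat.sub_self,
        coeff_zero_eq_constantCoeff_apply, map_sub, map_sub, map_mul, map_mul, map_mul, hg2, hs2,
        hs0, hgl0, ← ha, one_mul]
      abel
  have hu : IsUnit g := by
    rw [PowerSeries.isUnit_iff_constantCoeff, hg0]; exact isUnit_one
  obtain ⟨u, rfl⟩ := hu
  have hgA : ∀ i, coeff i (u : D⟦X⟧) ∈ A := fun i => by rw [hg, coeff_mk]; exact (hmem i).1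
  refine ⟨u, hg0, hgA, fun n => ?_, fun i => ?_⟩
  · induction n using Nat.strong_induction_on with
    | _ n ih =>
      have e1 : (↑u⁻¹ : D⟦X⟧) = 1 - ↑u⁻¹ * ((u : D⟦X⟧) - 1) := by
        rw [mul_sub, Units.inv_mul, mul_one]; abel
      rw [e1, map_sub, coeff_mul]
      refine A.sub_mem ?_ (A.sum_mem fun q hq => ?_)
      · rw [coeff_one]; split_ifs
        · exact A.one_mem
        · exact A.zero_mem
      · have := Finset.HasAntidiagonal.mem_antidiagonal.1 hq
        by_cases h : q.2 = 0
        · rw [h, coeff_zero_eq_constantCoeff_apply, map_sub, hg0, map_one, sub_self, mul_zero]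
          exact A.zero_mem
        · refine A.mul_mem (ih _ (by omega)) ?_
          rw [map_sub, coeff_one, if_neg h, sub_zero]
          exact hgA _
  · rw [mul_assoc, hkey, Units.inv_mul_cancel_left, hs', coeff_mk, ← ha]
    exact hcomm i

end Crest.Agent.Ku.H6
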